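import Vale.Agent.P052.Bdl.B1

namespace Vale.Agent.Results.P052.AllFrom63

open Vale.Agent.P052

/-- For every `d ≥ 63` there is a finite set in `d`-dimensional Euclidean space whose Borsuk number
is at least `d + 2`; in particular Borsuk's conjecture fails in every dimension `d ≥ 63`. -/
theorem result (d : ℕ) (hd : 63 ≤ d) :
    (∃ Y : Set (EuclideanSpace ℝ (Fin d)), Y.Finite ∧ 0 < Metric.diam Y ∧
      d + 2 ≤ borsukNumber Y) ∧ ¬ BorsukConjecture d :=
  ⟨exists_all d hd, not_conjecture_of_exists (exists_all d hd)⟩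

end Vale.Agent.Results.P052.AllFrom63
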